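import Vale.Agent.P248.Far
import Vale.Agent.P248.Hanner

namespace Vale.Agent.Results.P248.Symmetric

open MeasureTheory Vale.Agent.P248

theorem result (n : ℕ) (hn : 1 ≤ n) (K : Set (Fin n → ℝ)) (hcpt : IsCompact K)
    (hcvx : Convex ℝ K) (hint : (interior K).Nonempty) (hsymm : ∀ x ∈ K, -x ∈ K) :
    (4 : ℝ) ^ n / (n.factorial : ℝ) ≤ (volume K).toReal * (volume (polar K)).toReal ∧
    ((volume K).toReal * (volume (polar K)).toReal = (4 : ℝ) ^ n / (n.factorial : ℝ) ↔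
      ∃ (H : Set (Fin n → ℝ)) (T : (Fin n → ℝ) ≃ₗ[ℝ] (Fin n → ℝ)),
        IsHanner n H ∧ K = T '' H) := by
  obtain ⟨k, rfl⟩ : ∃ k, n = k + 1 := ⟨n - 1, by omega⟩
  have h := SB.of hcpt hcvx hint hsymm
  have hfin := ENNReal.mul_ne_top h.cpt.measure_lt_top.ne h.pol.cpt.measure_lt_top.ne
    (a := volume K) (b := volume (polar K))
  refine ⟨?_, fun e => h.hanner ?_, ?_⟩
  · rw [← ENNReal.toReal_mul]
    exact (ENNReal.ofReal_le_iff_le_toReal hfin).mp h.mahler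
  · rw [← e, ← ENNReal.toReal_mul, ENNReal.ofReal_toReal hfin]
  · rintro ⟨H, T, hH, rfl⟩
    rw [vol_image, ← hH.eq.2, mul_div_cancel_left₀ _ (by exact_mod_cast (k + 1).factorial_ne_zero)]

end Vale.Agent.Results.P248.Symmetric
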