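import Vale.Agent.P248.Limit

namespace Vale.Agent.Results.P248.SymmetricIneq

open MeasureTheory Vale.Agent.P248

theorem result (n : ℕ) (hn : 1 ≤ n) (K : Set (Fin n → ℝ)) (hcpt : IsCompact K)
    (hcvx : Convex ℝ K) (hint : (interior K).Nonempty) (hsymm : ∀ x ∈ K, -x ∈ K) :
    (4 : ℝ) ^ n / (n.factorial : ℝ) ≤ (volume K).toReal * (volume (polar K)).toReal := by
  obtain ⟨k, rfl⟩ : ∃ k, n = k + 1 := ⟨n - 1, by omega⟩
  have h := SB.of hcpt hcvx hint hsymm
  rw [← ENNReal.toReal_mul]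
  exact (ENNReal.ofReal_le_iff_le_toReal
    (ENNReal.mul_ne_top h.cpt.measure_lt_top.ne h.pol.cpt.measure_lt_top.ne)).mp h.mahler

end Vale.Agent.Results.P248.SymmetricIneq
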